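import Vale.Agent.P183NK.Ord
import Vale.Agent.P183A.EmbL

/-!
Order theoretic lemmas on `Good`, `Hairy`: arms, raising the base, potentials.
-/

namespace Vale.Agent.P183NK

open Vale.Agent.P183A

variable {L : Type} [Lattice L] {m k : ℕ} {o a b : L}

theorem Good.lt (h : Good m k a b) : a < b := by
  cases k with
  | zero => exact h
  | succ k => obtain ⟨_, _, h, _⟩ := h; exact h

theorem Good.pred : ∀ {k : ℕ} {a b : L}, Good m (k + 1) a b → Good m k a b
  | 0, _, _, h => h.lt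
  | _ + 1, _, _, ⟨c, z, h, hs, hz⟩ => ⟨c, z, h, hs, fun i => ⟨(hz i).1, (hz i).2.1.pred, (hz i).2.2.pred⟩⟩

theorem Good.of_le {k' : ℕ} (h : Good m k a b) (hk : k' ≤ k) : Good m k' a b := by
  induction hk with
  | refl => exact h
  | step _ ih => exact ih h.pred

/-- The arms of a good interval. -/
structure Arms (m k : ℕ) (a b : L) (c : L → Fin m) (z : Fin m → L) : Prop where
  lt : a < b
  hs : HS a b c
  col : ∀ i, c (z i) = i
  low : ∀ i, Good m k a (z i)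
  up : ∀ i, Good m k (z i) b

theorem Good.arms (h : Good m (k + 1) a b) : ∃ c z, Arms m k a b c z :=
  let ⟨c, z, h, hs, hz⟩ := h
  ⟨c, z, h, hs, fun i => (hz i).1, fun i => (hz i).2.1, fun i => (hz i).2.2⟩

theorem HS.col_eq {ι : Type} {c : L → ι} (h : HS a b c) {u v : L} (hu : a < u) (huv : u ≤ v)
    (hv : v < b) : c u = c v := by
  by_contra e
  have := (h u v hu (huv.trans_lt hv) (hu.trans_le huv) hv e).1
  rw [inf_eq_left.2 huv] at this
  exact hu.ne' this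

namespace Arms

variable {c : L → Fin m} {z : Fin m → L} (h : Arms m k a b c z)
include h

theorem lt_z (i : Fin m) : a < z i := (h.low i).lt

theorem z_lt (i : Fin m) : z i < b := (h.up i).lt

theorem col_of {i : Fin m} {u : L} (hu : z i ≤ u) (hb : u < b) : c u = i :=
  (h.hs.col_eq (h.lt_z i) hu hb).symm.trans (h.col i)

theorem inf_eq {i j : Fin m} (hij : i ≠ j) {u v : L} (hu : z i ≤ u) (hub : u < b) (hv : z j ≤ v)
    (hvb : v < b) : u ⊓ v = a :=
  (h.hs u v ((h.lt_z i).trans_le hu) hub ((h.lt_z j).trans_le hv) hvb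
    (by rw [h.col_of hu hub, h.col_of hv hvb]; exact hij)).1

theorem sup_eq {i j : Fin m} (hij : i ≠ j) {u v : L} (hu : z i ≤ u) (hub : u < b) (hv : z j ≤ v)
    (hvb : v < b) : u ⊔ v = b :=
  (h.hs u v ((h.lt_z i).trans_le hu) hub ((h.lt_z j).trans_le hv) hvb
    (by rw [h.col_of hu hub, h.col_of hv hvb]; exact hij)).2

/-- A proper element lies above at most one arm. -/
theorem eq_of_le {i j : Fin m} {n : L} (hn : n < b) (hi : z i ≤ n) (hj : z j ≤ n) : i = j :=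
  (h.col_of hi hn).symm.trans (h.col_of hj hn)

theorem inf_or {i j : Fin m} (hij : i ≠ j) {n u v : L} (han : a ≤ n) (hn : n < b) (hu : z i ≤ u)
    (hub : u < b) (hv : z j ≤ v) (hvb : v < b) : n ⊓ u = a ∨ n ⊓ v = a := by
  rcases han.eq_or_lt with rfl | han
  · exact Or.inl (inf_eq_left.2 ((h.lt_z i).le.trans hu))
  by_cases e : c n = i
  · right
    exact (h.hs n v han hn ((h.lt_z j).trans_le hv) hvb
      (by rw [e, h.col_of hv hvb]; exact hij)).1
  · left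
    exact (h.hs n u han hn ((h.lt_z i).trans_le hu) hub (by rw [h.col_of hu hub]; exact e)).1

end Arms

theorem Good.mono_m {m' : ℕ} (h0 : 0 < m') (hm : m' ≤ m) :
    ∀ {k : ℕ} {a b : L}, Good m k a b → Good m' k a b
  | 0, _, _, h => h
  | _ + 1, a, b, ⟨c, z, h, hs, hz⟩ => by
    refine ⟨fun u => if e : (c u).val < m' then ⟨(c u).val, e⟩ else ⟨0, h0⟩,
      fun i => z (Fin.castLE hm i), h, fun u v h1 h2 h3 h4 e => hs u v h1 h2 h3 h4 fun e' => e ?_,
      fun i => ⟨?_, Good.mono_m h0 hm (hz _).2.1, Good.mono_m h0 hm (hz _).2.2⟩⟩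
    · simp only [e']
    · simp [(hz _).1]

theorem Hairy.le (h : Hairy o a b) : o ≤ a := h.1

theorem Hairy.nomod (h : Hairy o a b) {y : L} (h1 : a ≤ y) (h2 : y ≤ b) : NoMod o y :=
  (h.2 y h1 h2).1

theorem Hairy.mono (h : Hairy o a b) {a' b' : L} (ha : a ≤ a') (hb : b' ≤ b) : Hairy o a' b' :=
  ⟨h.1.trans ha, fun y h1 h2 =>
    let ⟨h3, z, h4, h5, h6⟩ := h.2 y (ha.trans h1) (h2.trans hb)
    ⟨h3, z, h4, h5, fun u hu hub => h6 u hu (hub.trans hb)⟩⟩

theorem Hairy.up (h : Hairy o a b) {a' : L} (ha : a ≤ a') : Hairy o a' b := h.mono ha le_rfl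

/-- Pigeonhole: few bad arms. -/
theorem exists_not_bad {r : ℕ} (hr : r < m) (Bad : Fin m → Prop)
    (h : ∀ s : Finset (Fin m), (∀ i ∈ s, Bad i) → s.card ≤ r) : ∃ i, ¬ Bad i := by
  by_contra c
  push Not at c
  have := h Finset.univ fun i _ => c i
  simp at this
  omega

theorem card_le_one_of {Bad : Fin m → Prop} (h : ∀ i j, Bad i → Bad j → i = j)
    (s : Finset (Fin m)) (hs : ∀ i ∈ s, Bad i) : s.card ≤ 1 :=
  Finset.card_le_one.2 fun i hi j hj => h i j (hs i hi) (hs j hj)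

theorem card_le_two_of {Bad : Fin m → Prop}
    (h : ∀ i j l, Bad i → Bad j → Bad l → i ≠ j → i ≠ l → j ≠ l → False)
    (s : Finset (Fin m)) (hs : ∀ i ∈ s, Bad i) : s.card ≤ 2 := by
  by_contra c
  obtain ⟨i, hi, j, hj, l, hl, h1, h2, h3⟩ := Finset.two_lt_card.1 (not_le.1 c)
  exact h i j l (hs i hi) (hs j hj) (hs l hl) h1 h2 h3

theorem card_le_add_of {r r' : ℕ} {Bad Bad' : Fin m → Prop}
    (h : ∀ s : Finset (Fin m), (∀ i ∈ s, Bad i) → s.card ≤ r)
    (h' : ∀ s : Finset (Fin m), (∀ i ∈ s, Bad' i) → s.card ≤ r')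
    (s : Finset (Fin m)) (hs : ∀ i ∈ s, Bad i ∨ Bad' i) : s.card ≤ r + r' := by
  classical
  rw [← Finset.card_filter_add_card_filter_not (s := s) Bad]
  refine add_le_add (h _ fun i hi => (Finset.mem_filter.1 hi).2) (h' _ fun i hi => ?_)
  exact (hs i (Finset.mem_filter.1 hi).1).resolve_left (Finset.mem_filter.1 hi).2

/-- Raising the base to an arm that is not bad. -/
theorem Good.raise {r : ℕ} (hr : r < m) (h : Good m (k + 1) a b) (Q : L → Prop)
    (hq : ∀ c z, Arms m k a b c z → ∀ s : Finset (Fin m), (∀ i ∈ s, ¬ Q (z i)) → s.card ≤ r) :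
    ∃ a', a < a' ∧ Good m k a' b ∧ Q a' := by
  obtain ⟨c, z, hA⟩ := h.arms
  obtain ⟨i, hi⟩ := exists_not_bad hr _ (hq c z hA)
  exact ⟨z i, hA.lt_z i, hA.up i, not_not.1 hi⟩

/-- Raising the base: at most one bad arm. -/
theorem Good.raise_one (hm : 2 ≤ m) (h : Good m (k + 1) a b) (Q : L → Prop)
    (hq : ∀ c z, Arms m k a b c z → ∀ i j, ¬ Q (z i) → ¬ Q (z j) → i = j) :
    ∃ a', a < a' ∧ Good m k a' b ∧ Q a' :=
  h.raise (r := 1) hm Q fun c z hA => card_le_one_of (hq c z hA)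

/-- Raising the base above a node that does not lie below the proper element `n`. -/
theorem Good.raise_not_le (hm : 2 ≤ m) (h : Good m (k + 1) a b) {n : L} (hn : n < b) :
    ∃ a', a < a' ∧ Good m k a' b ∧ ¬ a' ≤ n :=
  h.raise_one hm _ fun _ _ hA _ _ hi hj => hA.eq_of_le hn (not_not.1 hi) (not_not.1 hj)

/-- Decreasing potential. -/
theorem Good.potential (φ : L → ℕ) (Q : L → Prop) {x : L}
    (step : ∀ a k, x ≤ a → Good m (k + 1) a b → ¬ Q a →
      ∃ a', a ≤ a' ∧ Good m k a' b ∧ (Q a' ∨ φ a' < φ a)) :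
    ∀ (c : ℕ) (a : L), x ≤ a → φ a ≤ c → Good m (k + (c + 1)) a b →
      ∃ a', a ≤ a' ∧ Good m k a' b ∧ Q a' := by
  intro c
  induction c with
  | zero =>
    intro a hx hc h
    by_cases q : Q a
    · exact ⟨a, le_rfl, h.pred, q⟩
    · obtain ⟨a', h1, h2, h3 | h3⟩ := step a k hx h q
      · exact ⟨a', h1, h2, h3⟩
      · omega
  | succ c ih =>
    intro a hx hc h
    by_cases q : Q a
    · exact ⟨a, le_rfl, h.of_le (by omega), q⟩
    · obtain ⟨a', h1, h2, h3 | h3⟩ := step a (k + (c + 1)) hx h q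
      · exact ⟨a', h1, h2.of_le (by omega), h3⟩
      · obtain ⟨a'', h4, h5, h6⟩ := ih a' (hx.trans h1) (by omega) h2
        exact ⟨a'', h1.trans h4, h5, h6⟩

/-- Increasing bounded potential. -/
theorem Good.potential' (φ : L → ℕ) (Q : L → Prop) {x : L} (c : ℕ) (hc : ∀ a, x ≤ a → φ a ≤ c)
    (step : ∀ a k, x ≤ a → Good m (k + 1) a b → ¬ Q a →
      ∃ a', a ≤ a' ∧ Good m k a' b ∧ (Q a' ∨ φ a < φ a'))
    (h : Good m (k + (c + 1)) x b) : ∃ a', x ≤ a' ∧ Good m k a' b ∧ Q a' :=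
  Good.potential (fun a => c - φ a) Q (x := x) (fun a k hx h q => by
    obtain ⟨a', h1, h2, h3⟩ := step a k hx h q
    refine ⟨a', h1, h2, h3.imp id fun h4 => ?_⟩
    have := hc a' (hx.trans h1)
    omega) c x le_rfl (Nat.sub_le _ _) h

theorem MT.lt {P : L → L → Prop} {j : ℕ} (h : MT m P j a b) : a < b := by
  cases j with
  | zero => exact h
  | succ j => obtain ⟨_, _, _, _, _, h1, h2, h3, _⟩ := h; exact h1.trans_lt (h2.trans_le h3)

theorem MT.mono {P P' : L → L → Prop} (hP : ∀ u z, P u z → P' u z) :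
    ∀ {j : ℕ} {a b : L}, MT m P j a b → MT m P' j a b
  | 0, _, _, h => h
  | _ + 1, _, _, ⟨a', b', c, z, u, h1, h2, h3, h4, h5⟩ => ⟨a', b', c, z, u, h1, h2, h3, h4, fun i =>
    ⟨(h5 i).1, (h5 i).2.1, hP _ _ (h5 i).2.2.1, MT.mono hP (h5 i).2.2.2.1, MT.mono hP (h5 i).2.2.2.2⟩⟩

theorem MT.widen {P : L → L → Prop} {j : ℕ} {a' b' : L} (h : MT m P j a b) (ha : a' ≤ a)
    (hb : b ≤ b') : MT m P j a' b' := by
  cases j with
  | zero => exact ha.trans_lt (h.lt.trans_le hb)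
  | succ j =>
    obtain ⟨a'', b'', c, z, u, h1, h2, h3, h4⟩ := h
    exact ⟨a'', b'', c, z, u, ha.trans h1, h2, h3.trans hb, h4⟩

theorem MT.pred {P : L → L → Prop} : ∀ {j : ℕ} {a b : L}, MT m P (j + 1) a b → MT m P j a b
  | 0, _, _, h => h.lt
  | _ + 1, _, _, ⟨a', b', c, z, u, h1, h2, h3, h4, h5⟩ => ⟨a', b', c, z, u, h1, h2, h3, h4, fun i =>
    ⟨(h5 i).1, (h5 i).2.1, (h5 i).2.2.1, (h5 i).2.2.2.1.pred, (h5 i).2.2.2.2.pred⟩⟩

theorem MT.of_le {P : L → L → Prop} {j j' : ℕ} (h : MT m P j a b) (hj : j' ≤ j) :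
    MT m P j' a b := by
  induction hj with
  | refl => exact h
  | step _ ih => exact ih h.pred

theorem MT.mono_m {P : L → L → Prop} {m' : ℕ} (h0 : 0 < m') (hm : m' ≤ m) :
    ∀ {j : ℕ} {a b : L}, MT m P j a b → MT m' P j a b
  | 0, _, _, h => h
  | _ + 1, _, _, ⟨a', b', c, z, u, h1, h2, h3, hs, hz⟩ => by
    refine ⟨a', b', fun u => if e : (c u).val < m' then ⟨(c u).val, e⟩ else ⟨0, h0⟩,
      fun i => z (Fin.castLE hm i), fun i => u (Fin.castLE hm i), h1, h2, h3,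
      fun u v h1 h2 h3 h4 e => hs u v h1 h2 h3 h4 fun e' => e ?_,
      fun i => ⟨?_, (hz _).2.1, (hz _).2.2.1, MT.mono_m h0 hm (hz _).2.2.2.1,
        MT.mono_m h0 hm (hz _).2.2.2.2⟩⟩
    · simp only [e']
    · simp [(hz _).1]

/-- Restricting the predicate to the nodes inside the interval. -/
theorem MT.mono_in {P P' : L → L → Prop} {x y : L}
    (hP : ∀ u z, x ≤ u → u < z → z < y → P u z → P' u z) :
    ∀ {j : ℕ} {a b : L}, x ≤ a → b ≤ y → MT m P j a b → MT m P' j a b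
  | 0, _, _, _, _, h => h
  | _ + 1, _, _, ha, hb, ⟨a', b', c, z, u, h1, h2, h3, h4, h5⟩ =>
    ⟨a', b', c, z, u, h1, h2, h3, h4, fun i => by
      obtain ⟨e1, e2, e3, e4, e5⟩ := h5 i
      have hu : x ≤ u i := (ha.trans h1).trans e2
      have hz : z i < y := e5.lt.trans_le (h3.trans hb)
      exact ⟨e1, e2, hP _ _ hu e4.lt hz e3, MT.mono_in hP hu hz.le e4,
        MT.mono_in hP (hu.trans e4.lt.le) (h3.trans hb) e5⟩⟩

theorem GoodC.lt {C : L → Prop} (h0 : 0 < m) (h : GoodC C m k a b) : a < b := by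
  induction k generalizing a b with
  | zero => exact h
  | succ k ih => obtain ⟨z, hz, -⟩ := h; exact (ih (hz ⟨0, h0⟩).2.1).trans (ih (hz ⟨0, h0⟩).2.2)

end Vale.Agent.P183NK
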