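import Vale.Agent.P183NK.Node
import Vale.Agent.P183NC.Ord
import Vale.Agent.P183AL.Cr
import Mathlib.GroupTheory.Nilpotent

/-!
Node calculus: the groups `EE H K` and `CC H K`.
-/

set_option linter.unusedSectionVars false

namespace Vale.Agent.P183NK

open Vale.Agent.P183A Subgroup
open scoped commutatorElement

variable {G : Type} [Group G] {H K K' R T a b : Subgroup G}

theorem EE_le_of (h1 : R ≤ K) (h2 : Nm K R) (h3 : ¬ R ≤ H) : EE H K ≤ R := sInf_le ⟨h1, h2, h3⟩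

theorem nm_EE (H K : Subgroup G) : Nm K (EE H K) := Nm.sInf fun _ hR => hR.2.1

theorem Sm.eq_EE {E : Subgroup G} (h : Sm H K E) : EE H K = E :=
  le_antisymm (EE_le_of h.le h.nm h.nle) (le_sInf fun R hR => h.min R hR.1 hR.2.1 hR.2.2)

theorem CC_le (H K : Subgroup G) : CC H K ≤ H := sSup_le fun _ hR => hR.1

theorem nm_CC (H K : Subgroup G) : Nm K (CC H K) := Nm.sSup fun _ hR => hR.2

theorem le_CC (h1 : R ≤ H) (h2 : Nm K R) : R ≤ CC H K := le_sSup ⟨h1, h2⟩

theorem CC_anti (h : K ≤ K') : CC H K' ≤ CC H K := le_CC (CC_le _ _) ((nm_CC _ _).mono h)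

section
variable [Finite G] (h : NoMod H K)
include h

theorem sm_EE : Sm H K (EE H K) :=
  let ⟨_, hE⟩ := exists_sm h
  (Sm.eq_EE hE).symm ▸ hE

theorem EE_le : EE H K ≤ K := (sm_EE h).le

theorem EE_nle : ¬ EE H K ≤ H := (sm_EE h).nle

theorem sup_EE : H ⊔ EE H K = K := (sm_EE h).sup h

theorem EE_perfect : EE H K ≤ ⁅EE H K, EE H K⁆ := (sm_EE h).perfect h

theorem EE_comm : ⁅EE H K, EE H K⁆ = EE H K := le_antisymm (commutator_le_self _) (EE_perfect h)

theorem EE_ne_bot : EE H K ≠ ⊥ := fun e => EE_nle h (e.le.trans bot_le)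

theorem EE_not_cm : ¬ Cm (EE H K) (EE H K) := fun c =>
  EE_ne_bot h (by rw [← EE_comm h]; exact cm_iff_comm.1 c)

theorem nm_H_EE : Nm H (EE H K) := (nm_EE H K).mono h.lt.le

/-- A normal subgroup of `K` lies in `H` or contains `EE H K`. -/
theorem le_or_EE_le (h1 : R ≤ K) (h2 : Nm K R) : R ≤ H ∨ EE H K ≤ R :=
  (em _).imp id (EE_le_of h1 h2)

/-- A normal subgroup of `K` that commutes with a nonabelian part of `EE H K` lies in `H`. -/
theorem le_of_cm (h1 : R ≤ K) (h2 : Nm K R) {X : Subgroup G} (hX : X ≤ EE H K) (hc : Cm R X)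
    (hn : ¬ Cm X X) : R ≤ H :=
  (le_or_EE_le h h1 h2).resolve_right fun e => hn (hc.mono (hX.trans e) le_rfl)

theorem mem_node {g : G} (hg : g ∈ K) : ∃ x ∈ H, ∃ e ∈ EE H K, g = x * e := by
  rw [← sup_EE h] at hg
  obtain ⟨x, hx, e, he, rfl⟩ := (nm_H_EE h).mem_sup.1 hg
  exact ⟨x, hx, e, he, rfl⟩

theorem EE_mono (h' : NoMod H K') (hK : K ≤ K') : EE H K ≤ EE H K' := by
  refine (EE_le_of (R := K ⊓ EE H K') inf_le_left
    ((Nm.of_le le_rfl).inf ((nm_EE H K').mono hK)) fun c => h.lt.not_ge ?_).trans inf_le_right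
  have := (nm_H_EE h').dedekind h.lt.le
  rw [sup_EE h', inf_eq_right.2 hK] at this
  rw [this]
  exact sup_le le_rfl ((inf_comm _ _).le.trans c)

/-- Closing lemma. -/
theorem le_of_normal (hH : H ≤ a) (h1 : R ≤ K) (h2 : Nm K R) (h3 : ¬ R ≤ H) (h4 : R ≤ a) :
    K ≤ a := by
  rw [← sup_EE h]
  exact sup_le hH ((EE_le_of h1 h2 h3).trans h4)

theorem le_of_EE_le (hH : H ≤ a) (h4 : EE H K ≤ a) : K ≤ a := by
  rw [← sup_EE h]
  exact sup_le hH h4

theorem eq_of_EE_eq (h' : NoMod H K') (e : EE H K = EE H K') : K = K' := by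
  rw [← sup_EE h, e, sup_EE h']

theorem EE_sup (h' : NoMod H K') (h'' : NoMod H (K ⊔ K')) :
    EE H (K ⊔ K') = EE H K ⊔ EE H K' := by
  refine le_antisymm (EE_le_of (sup_le_sup (EE_le h) (EE_le h')) ?_ fun c =>
    EE_nle h (le_sup_left.trans c))
    (sup_le (EE_mono h h'' le_sup_left) (EE_mono h' h'' le_sup_right))
  have hH : Nm H (EE H K ⊔ EE H K') := (nm_H_EE h).sup (nm_H_EE h')
  conv_lhs => rw [← sup_EE h, ← sup_EE h']
  exact (hH.sup_left (Nm.of_le le_sup_left)).sup_left (hH.sup_left (Nm.of_le le_sup_right))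

/-- The centraliser of `EE H K` in `K` lies in `H`. -/
theorem cent_EE_le : K ⊓ centralizer (EE H K : Set G) ≤ H :=
  le_of_cm h inf_le_left ((Nm.of_le le_rfl).inf (nm_EE H K).centralizer) le_rfl
    ((cm_centralizer _).mono inf_le_right le_rfl) (EE_not_cm h)

end

/-- A perfect group is killed by a homomorphism to a solvable group. -/
theorem perfect_map_eq_one {A : Type*} [Group A] [Group.IsSolvable A] {E : Subgroup G}
    (hE : E ≤ ⁅E, E⁆) (f : E →* A) (x : E) : f x = 1 := by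
  obtain ⟨n, hn⟩ := ‹Group.IsSolvable A›
  have ht : ⁅(⊤ : Subgroup E), (⊤ : Subgroup E)⁆ = ⊤ := map_injective E.subtype_injective (by
    rw [map_commutator, ← MonoidHom.range_eq_map, range_subtype]
    exact le_antisymm (commutator_le_self E) hE)
  have key : ∀ n, derivedSeries E n = ⊤ := fun n => by
    induction n with
    | zero => rfl
    | succ n ih => rw [derivedSeries_succ, ih, ht]
  have := map_derivedSeries_le_derivedSeries f n ⟨x, by rw [key]; trivial, rfl⟩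
  rwa [hn] at this

theorem perfect_eq_bot {E : Subgroup G} (hE : E ≤ ⁅E, E⁆) (hR : E ≤ R) [Group.IsSolvable R] :
    E = ⊥ := by
  refine le_bot_iff.1 fun x hx => ?_
  have := perfect_map_eq_one hE (inclusion hR) ⟨x, hx⟩
  exact congrArg Subtype.val this

section
variable [Finite G] (h : NoMod H K)
include h

/-- A solvable normal subgroup of `K` lies in `H`. -/
theorem le_of_solvable (h1 : R ≤ K) (h2 : Nm K R) [Group.IsSolvable R] : R ≤ H :=
  (le_or_EE_le h h1 h2).resolve_right fun e => EE_ne_bot h (perfect_eq_bot (EE_perfect h) e)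

theorem le_of_pgroup {p : ℕ} [Fact p.Prime] (h1 : R ≤ K) (h2 : Nm K R) (hp : IsPGroup p R) :
    R ≤ H := by
  have := hp.isNilpotent
  exact le_of_solvable h h1 h2

theorem CC_comm_le (hT : Nm K T) : ⁅CC H K ⊓ T, EE H K⁆ ≤ CC H K ⊓ T ⊓ EE H K :=
  le_inf (((nm_CC H K).inf hT).mono (EE_le h)).comm_le_left
    ((nm_EE H K).mono (inf_le_left.trans ((CC_le _ _).trans h.lt.le))).comm_le_right

/-- If `EE H K` is simple, the core centralises it. -/
theorem cm_CC_of_simple (hs : IsSimpleGroup (EE H K)) : Cm (CC H K) (EE H K) := by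
  have hn : ((CC H K).subgroupOf (EE H K)).Normal := ⟨fun x hx g =>
    nm_CC H K g (EE_le h g.2) x hx⟩
  rcases hs.eq_bot_or_eq_top_of_normal _ hn with e | e
  · refine cm_iff_comm.2 (le_bot_iff.1 ?_)
    have h1 := CC_comm_le h (T := ⊤) (Nm.of_normal _ _)
    rw [inf_top_eq] at h1
    exact h1.trans (subgroupOf_eq_bot.1 e).le_bot
  · exact absurd ((subgroupOf_eq_top.1 e).trans (CC_le _ _)) (EE_nle h)

theorem AS.CC_inf (hs : AS H T K) : CC H K ⊓ T = ⊥ :=
  le_bot_iff.1 ((inf_le_inf_right _ (cm_iff.1 (cm_CC_of_simple h hs.1))).trans hs.2.le)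

end

section
variable [Finite G] (h : Hairy H a b) (ha : a ≤ K) (hb : K ≤ b)
include h ha hb

/-- Inside a hairy region every node is the normaliser of its group `EE`. -/
theorem Hairy.le_of_nm (h1 : R ≤ b) (h2 : Nm R (EE H K)) : R ≤ K := by
  have hK := h.nomod ha hb
  have hK' := h.nomod (y := K ⊔ R) (ha.trans le_sup_left) (sup_le hb h1)
  exact le_sup_right.trans (le_of_normal hK' hK.lt.le ((EE_le hK).trans le_sup_left)
    ((nm_EE H K).sup_left h2) (EE_nle hK) (EE_le hK))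

theorem Hairy.cent_le : b ⊓ centralizer (EE H K : Set G) ≤ H :=
  (le_inf (h.le_of_nm ha hb inf_le_left ((cm_centralizer _).mono inf_le_right le_rfl).nm)
    inf_le_right).trans (cent_EE_le (h.nomod ha hb))

theorem Hairy.cent_le_CC : b ⊓ centralizer (EE H K : Set G) ≤ CC H K :=
  le_CC (h.cent_le ha hb) ((Nm.of_le hb).inf (nm_EE H K).centralizer)

theorem Hairy.as_of (hT : T ≤ b) (hs : IsSimpleGroup (EE H K)) (hc : CC H K ⊓ T = ⊥) : AS H T K :=
  ⟨hs, le_bot_iff.1 ((le_inf ((le_inf (inf_le_right.trans hT) inf_le_left).trans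
    (h.cent_le_CC ha hb)) inf_le_right).trans hc.le)⟩

end

open Vale.Agent.P183AL

/-- A nonabelian minimal normal subgroup is completely reducible. -/
theorem cr_of_mn {L E : Subgroup G} [Finite G] (hm : Mn L E) (hL : Nm L E) (hn : ¬ Cm E E) :
    Cr E := by
  refine ⟨fun W hW => hm.le_sup hL hW, ?_⟩
  rcases hm (Cz E E) nl_self.cz (hL.inf hL.centralizer) with e | e
  · exact e
  · exact absurd (cm_iff.2 (e.ge.trans inf_le_right)) hn

/-- CORE2, one inclusion. -/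
theorem core_le {R₁ R₂ : Subgroup G} (h1 : Cr R₁) (n12 : Nm R₁ R₂) (n21 : Nm R₂ R₁)
    (hc : R₁ ⊓ centralizer (R₂ : Set G) = ⊥) : R₁ ≤ R₂ := by
  have hW : Nl R₁ (R₁ ⊓ R₂) := ⟨inf_le_left, (Nm.of_le le_rfl).inf n12⟩
  have hn : Nm R₂ (Cz R₁ (R₁ ⊓ R₂)) := n21.inf (n21.inf (Nm.of_le le_rfl)).centralizer
  have h2 : ⁅Cz R₁ (R₁ ⊓ R₂), R₂⁆ = ⊥ := h1.eq_bot hW
    (le_inf (hn.comm_le_left.trans inf_le_left) (n12.mono inf_le_left).comm_le_right)
    (hn.comm_le_left.trans inf_le_right)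
  have h3 : Cz R₁ (R₁ ⊓ R₂) = ⊥ :=
    le_bot_iff.1 ((le_inf inf_le_left (cm_iff.1 (cm_iff_comm.2 h2))).trans hc.le)
  have := h1.sup _ hW
  rw [h3, sup_bot_eq] at this
  exact this.trans inf_le_right

/-- CORE2. -/
theorem core_eq {R₁ R₂ : Subgroup G} (h1 : Cr R₁) (h2 : Cr R₂) (l1 : R₁ ≤ a) (l2 : R₂ ≤ a)
    (n1 : Nm a R₁) (n2 : Nm a R₂) (t1 : R₁ ≤ T) (t2 : R₂ ≤ T)
    (c1 : centralizer (R₁ : Set G) ⊓ T = ⊥) (c2 : centralizer (R₂ : Set G) ⊓ T = ⊥) : R₁ = R₂ :=
  le_antisymm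
    (core_le h1 (n2.mono l1) (n1.mono l2)
      (le_bot_iff.1 ((le_inf inf_le_right (inf_le_left.trans t1)).trans c2.le)))
    (core_le h2 (n1.mono l2) (n2.mono l1)
      (le_bot_iff.1 ((le_inf inf_le_right (inf_le_left.trans t2)).trans c1.le)))

theorem exists_mn [Finite G] {L C : Subgroup G} (hC : C ≠ ⊥) (hL : Nm L C) :
    ∃ R, R ≤ C ∧ R ≠ ⊥ ∧ Nm L R ∧ ∀ W ≤ R, Nm L W → W = ⊥ ∨ W = R := by
  obtain ⟨R, hR⟩ := (Set.toFinite {R : Subgroup G | R ≤ C ∧ R ≠ ⊥ ∧ Nm L R}).exists_minimal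
    ⟨C, le_rfl, hC, hL⟩
  refine ⟨R, hR.1.1, hR.1.2.1, hR.1.2.2, fun W h1 h2 => ?_⟩
  by_cases e : W = ⊥
  · exact Or.inl e
  · exact Or.inr (le_antisymm h1 (hR.2 (y := W) ⟨h1.trans hR.1.1, e, h2⟩ h1))

section
variable [Finite G] (h : NoMod H K) (hT : Nm K T) (hE : EE H K ≤ T) (hc : CC H K ⊓ T = ⊥)
include h hT hE hc

/-- With trivial core, `EE H K` is a minimal normal subgroup of `K`. -/
theorem EE_min (W : Subgroup G) (h1 : W ≤ EE H K) (h2 : Nm K W) : W = ⊥ ∨ W = EE H K := by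
  rcases le_or_EE_le h (h1.trans (EE_le h)) h2 with e | e
  · exact Or.inl (le_bot_iff.1 ((le_inf (le_CC e h2) (h1.trans hE)).trans hc.le))
  · exact Or.inr (le_antisymm h1 e)

theorem mn_EE : Mn K (EE H K) := fun W h1 h2 => EE_min h hT hE hc W h1.1 h2

theorem mn_H_EE : Mn H (EE H K) := fun W h1 h2 => EE_min h hT hE hc W h1.1 (by
  conv_lhs => rw [← sup_EE h]
  exact h2.sup_left h1.2)

theorem cr_EE : Cr (EE H K) := cr_of_mn (mn_EE h hT hE hc) (nm_EE H K) (EE_not_cm h)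

/-- If every nontrivial normal subgroup of `EE H K` has trivial centraliser, it is simple. -/
theorem simple_EE (hs : ∀ W, W ≤ EE H K → Nm (EE H K) W → W ≠ ⊥ →
    EE H K ⊓ centralizer (W : Set G) = ⊥) : IsSimpleGroup (EE H K) := by
  have : Nontrivial (EE H K) := (nontrivial_iff_ne_bot _).2 (EE_ne_bot h)
  refine ⟨fun W hW => ?_⟩
  have h1 : Nl (EE H K) (W.map (EE H K).subtype) := ⟨map_subtype_le _, by
    rintro g hg _ ⟨x, hx, rfl⟩
    exact ⟨_, hW.conj_mem x hx ⟨g, hg⟩, rfl⟩⟩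
  by_cases e : W.map (EE H K).subtype = ⊥
  · exact Or.inl ((map_eq_bot_iff_of_injective _ (subtype_injective _)).1 e)
  · right
    have h2 := (cr_EE h hT hE hc).sup _ h1
    rw [show Cz _ _ = ⊥ from hs _ h1.1 h1.2 e, sup_bot_eq] at h2
    refine top_le_iff.1 fun x _ => ?_
    obtain ⟨y, hy, e'⟩ := h2 x.2
    rwa [← show y = x from Subtype.ext e']

end

theorem Good.card_le [Finite G] {m : ℕ} (hm : 0 < m) :
    ∀ {k : ℕ} {a b : Subgroup G}, Good m k a b → 2 ^ (k + 1) * Nat.card a ≤ Nat.card b := by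
  have base : ∀ {a b : Subgroup G}, a < b → 2 * Nat.card a ≤ Nat.card b := fun {a b} h => by
    obtain ⟨c, hc⟩ := card_dvd_of_le h.le
    have h1 : Nat.card a < Nat.card b := Set.ncard_lt_ncard (SetLike.coe_ssubset_coe.2 h)
    have h2 : 0 < Nat.card a := Nat.card_pos
    have : 2 ≤ c := by
      by_contra h3
      have : c = 0 ∨ c = 1 := by omega
      rcases this with rfl | rfl <;> omega
    rw [hc, mul_comm]
    exact Nat.mul_le_mul_left _ this
  intro k
  induction k with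
  | zero => exact fun h => base h
  | succ k ih =>
    intro a b h
    obtain ⟨c, z, hA⟩ := h.arms
    have h1 := ih (hA.low ⟨0, hm⟩)
    have h2 := base (hA.z_lt ⟨0, hm⟩)
    rw [pow_succ 2 (k + 1)]
    nlinarith

end Vale.Agent.P183NK
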