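import Vale.Agent.P183NK.CSI
import Vale.Agent.P183NC.Node
import Vale.Agent.P183CF.CB2

/-!
Normalisers of subrings and subgroups, spans, the linear configuration.
-/

set_option linter.unusedSectionVars false

namespace Vale.Agent.P183NK.FS

open Subgroup Vale.Agent.P183A

variable {p : ℕ} [Fact p.Prime] {V : Type} [AddCommGroup V] [Module (ZMod p) V] {S : FS p V}

theorem Loc.nmR_iso [Finite V] {J : S.NR} {e : S.E} (h : S.Loc J e) : S.NmR (S.iso J) J := fun g hg x hx => by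
  have h1 := iso_sub hg
  have h2 := iso_sub (inv_mem hg)
  have : g.1 * x * g⁻¹.1 = (g.1 - 1) * x * (g⁻¹.1 - 1) + (g.1 - 1) * x + x * (g⁻¹.1 - 1) + x := by
    noncomm_ring
  rw [this]
  exact J.add_mem (J.add_mem (J.add_mem (J.mul_mem (J.mul_mem h1 hx) h2) (J.mul_mem h1 hx))
    (J.mul_mem hx h2)) hx

theorem NmR.mono {X X' : Subgroup S.Eˣ} {J : S.NR} (h : S.NmR X J) (hX : X' ≤ X) : S.NmR X' J :=
  fun g hg => h g (hX hg)

/-- The normaliser of a subring. -/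
def nR (J : S.NR) : Subgroup S.Eˣ where
  carrier := {g | ∀ x, x ∈ J ↔ g.1 * x * g⁻¹.1 ∈ J}
  one_mem' := fun x => by simp
  mul_mem' := fun {a b} ha hb x => by
    rw [hb x, ha]
    simp [mul_assoc]
  inv_mem' := fun {a} ha x => by
    rw [ha (a⁻¹.1 * x * a⁻¹⁻¹.1)]
    simp [mul_assoc]

theorem nmR_nR (J : S.NR) : S.NmR (nR J) J := fun _ hg x hx => (hg x).1 hx

theorem NmR.le_nR {X : Subgroup S.Eˣ} {J : S.NR} (h : S.NmR X J) : X ≤ nR J := fun g hg x =>
  ⟨h g hg x, fun hx => by simpa [mul_assoc] using h g⁻¹ (inv_mem hg) _ hx⟩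

theorem nmR_iff {X : Subgroup S.Eˣ} {J : S.NR} : S.NmR X J ↔ X ≤ nR J :=
  ⟨NmR.le_nR, fun h => (nmR_nR J).mono h⟩

theorem NmR.sup {X X' : Subgroup S.Eˣ} {J : S.NR} (h : S.NmR X J) (h' : S.NmR X' J) :
    S.NmR (X ⊔ X') J := nmR_iff.2 (sup_le h.le_nR h'.le_nR)

theorem NmR.inf {X : Subgroup S.Eˣ} {J J' : S.NR} (h : S.NmR X J) (h' : S.NmR X J') :
    S.NmR X (J ⊓ J') := fun g hg x hx => ⟨h g hg x hx.1, h' g hg x hx.2⟩

theorem conj_mul (g : S.Eˣ) (x y : S.E) :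
    g.1 * (x * y) * g⁻¹.1 = g.1 * x * g⁻¹.1 * (g.1 * y * g⁻¹.1) := by simp [mul_assoc]

theorem nmR_closure {X : Subgroup S.Eˣ} {s : Set S.E}
    (h : ∀ g ∈ X, ∀ x ∈ s, g.1 * x * g⁻¹.1 ∈ NonUnitalSubring.closure s) :
    S.NmR X (NonUnitalSubring.closure s) := fun g hg x hx => by
  induction hx using NonUnitalSubring.closure_induction with
  | mem x hx => exact h g hg x hx
  | zero => simp
  | add x y _ _ hx hy => rw [mul_add, add_mul]; exact add_mem hx hy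
  | neg x _ hx => rw [mul_neg, neg_mul]; exact neg_mem hx
  | mul x y _ _ hx hy => rw [conj_mul]; exact mul_mem hx hy

theorem NmR.sup' {X : Subgroup S.Eˣ} {J J' : S.NR} (h : S.NmR X J) (h' : S.NmR X J') :
    S.NmR X (J ⊔ J') := by
  rw [← J.closure_eq, ← J'.closure_eq, ← NonUnitalSubring.closure_union]
  exact nmR_closure fun g hg x hx => NonUnitalSubring.subset_closure
    (hx.imp (h g hg x) (h' g hg x))

theorem NmR.cent {X : Subgroup S.Eˣ} {J : S.NR} {e : S.E} (h : S.NmR X J)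
    (he : ∀ g ∈ X, g.1 * e = e * g.1) : S.NmR X (S.cent J e) := fun g hg x hx => by
  refine ⟨?_, ?_, fun d hd => ?_⟩
  · rw [← mul_assoc, ← mul_assoc, ← he g hg, mul_assoc g.1, hx.1]
  · rw [mul_assoc, he _ (inv_mem hg), ← mul_assoc, mul_assoc g.1, hx.2.1]
  · have := hx.2.2 _ (h g⁻¹ (inv_mem hg) d hd)
    have h2 := congrArg (fun y => g.1 * y * g⁻¹.1) this
    simpa [mul_assoc] using h2

theorem NmR.cent_one {X : Subgroup S.Eˣ} {J : S.NR} (h : S.NmR X J) : S.NmR X (S.cent J 1) :=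
  h.cent fun _ _ => by rw [mul_one, one_mul]

theorem st_closure {s : Set S.E} (h : ∀ x ∈ s, S.st x ∈ NonUnitalSubring.closure s) :
    ∀ x ∈ NonUnitalSubring.closure s, S.st x ∈ NonUnitalSubring.closure s := fun x hx => by
  induction hx using NonUnitalSubring.closure_induction with
  | mem x hx => exact h x hx
  | zero => simp
  | add x y _ _ hx hy => rw [st_add]; exact add_mem hx hy
  | neg x _ hx => rw [st_neg]; exact neg_mem hx
  | mul x y _ _ hx hy => rw [st_mul]; exact mul_mem hy hx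

theorem st_sup {J J' : S.NR} (h : ∀ x ∈ J, S.st x ∈ J) (h' : ∀ x ∈ J', S.st x ∈ J') :
    ∀ x ∈ J ⊔ J', S.st x ∈ J ⊔ J' := by
  rw [← J.closure_eq, ← J'.closure_eq, ← NonUnitalSubring.closure_union]
  exact st_closure fun x hx => NonUnitalSubring.subset_closure (hx.imp (h x) (h' x))

theorem val_mem_spanR {X : Subgroup S.Eˣ} {g : S.Eˣ} (hg : g ∈ X) : g.1 ∈ S.spanR X :=
  NonUnitalSubring.subset_closure ⟨g, hg, rfl⟩

theorem spanR_le {X : Subgroup S.Eˣ} {J : S.NR} : S.spanR X ≤ J ↔ ∀ g ∈ X, g.1 ∈ J :=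
  NonUnitalSubring.closure_le.trans ⟨fun h g hg => h ⟨g, hg, rfl⟩, by
    rintro h _ ⟨g, hg, rfl⟩; exact h g hg⟩

theorem spanR_mono {X X' : Subgroup S.Eˣ} (h : X ≤ X') : S.spanR X ≤ S.spanR X' :=
  spanR_le.2 fun _ hg => val_mem_spanR (h hg)

theorem nmR_spanR {X Y : Subgroup S.Eˣ} (h : Nm Y X) : S.NmR Y (S.spanR X) :=
  nmR_closure (by
    rintro g hg _ ⟨x, hx, rfl⟩
    exact val_mem_spanR (h g hg x hx))

theorem st_spanR {X : Subgroup S.Eˣ} (h : ∀ g ∈ X, S.st g.1 * g.1 = 1) :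
    ∀ x ∈ S.spanR X, S.st x ∈ S.spanR X := st_closure (by
  rintro _ ⟨g, hg, rfl⟩
  rw [st_eq_inv (h g hg)]
  exact val_mem_spanR (inv_mem hg))

theorem mem_cent_spanR {X : Subgroup S.Eˣ} {x : S.E} :
    x ∈ S.cent (S.spanR X) 1 ↔ ∀ g ∈ X, x * g.1 = g.1 * x := by
  rw [mem_cent_one]
  refine ⟨fun h g hg => h _ (val_mem_spanR hg), fun h d hd => ?_⟩
  induction hd using NonUnitalSubring.closure_induction with
  | mem y hy => obtain ⟨g, hg, rfl⟩ := hy; exact h g hg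
  | zero => simp
  | add x y _ _ hx hy => rw [mul_add, add_mul, hx, hy]
  | neg x _ hx => rw [mul_neg, neg_mul, hx]
  | mul y z _ _ hy hz => rw [← mul_assoc, hy, mul_assoc, hz, mul_assoc]


/-- The stabiliser of an additive subgroup. -/
def nV (S : FS p V) (U : AddSubgroup V) : Subgroup S.Eˣ where
  carrier := {g | ∀ v, v ∈ U ↔ g.1 v ∈ U}
  one_mem' := fun _ => Iff.rfl
  mul_mem' := fun {a b} ha hb v => (hb v).trans (ha _)
  inv_mem' := fun {a} ha v => by rw [ha (a⁻¹.1 v), u_app_inv]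

theorem le_nV {X : Subgroup S.Eˣ} {U : AddSubgroup V} :
    X ≤ S.nV U ↔ ∀ g ∈ X, ∀ v ∈ U, g.1 v ∈ U :=
  ⟨fun h g hg v hv => (h hg v).1 hv, fun h g hg v =>
    ⟨h g hg v, fun hv => by simpa using h g⁻¹ (inv_mem hg) _ hv⟩⟩

/-- The fixed vectors of a group. -/
def fixV (S : FS p V) (X : Subgroup S.Eˣ) : AddSubgroup V where
  carrier := {v | ∀ g ∈ X, g.1 v = v}
  zero_mem' := fun _ _ => map_zero _
  add_mem' := fun ha hb g hg => by rw [map_add, ha g hg, hb g hg]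
  neg_mem' := fun ha g hg => by rw [map_neg, ha g hg]

theorem mem_fixV {X : Subgroup S.Eˣ} {v : V} : v ∈ S.fixV X ↔ ∀ g ∈ X, g.1 v = v := Iff.rfl

theorem fixV_anti {X Y : Subgroup S.Eˣ} (h : X ≤ Y) : S.fixV Y ≤ S.fixV X :=
  fun _ hv g hg => hv g (h hg)

theorem fixV_inv {X Y : Subgroup S.Eˣ} (h : Nm Y X) {g : S.Eˣ} (hg : g ∈ Y) {v : V}
    (hv : v ∈ S.fixV X) : g.1 v ∈ S.fixV X := fun x hx => by
  have := congrArg g.1 (hv _ (h g⁻¹ (inv_mem hg) x hx))
  simpa using this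

theorem fixV_comm {X : Subgroup S.Eˣ} {z : S.E} (hz : ∀ g ∈ X, g.1 * z = z * g.1) {v : V}
    (hv : v ∈ S.fixV X) : z v ∈ S.fixV X := fun g hg => by
  rw [← Module.End.mul_apply, hz g hg, Module.End.mul_apply, hv g hg]

/-- Idempotents of a ring of scalars. -/
theorem Scal.idem_cases {D : S.NR} {e z : S.E} (h : S.Scal D e) (hz : z ∈ D) (hi : z * z = z) :
    z = 0 ∨ z = e ∨ S.st z = e - z := by
  have hs := h.star z hz
  have hc := h.comm z hz _ hs
  have hi' : S.st z * S.st z = S.st z := by rw [← st_mul, hi]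
  have key : ∀ w ∈ D, S.st w = w → w * w = w → w = 0 ∨ w = e := fun w hw h1 h2 => by
    by_cases e0 : w = 0
    · exact Or.inl e0
    · obtain ⟨y, -, hy⟩ := h.inv w hw h1 e0
      right
      rw [← h.right w hw, ← hy, ← mul_assoc, h2]
  rcases key (z * S.st z) (D.mul_mem hz hs) (by rw [st_mul, st_st]) (by
      rw [mul_assoc, ← mul_assoc (S.st z), ← hc, mul_assoc, hi', ← mul_assoc, hi]) with e1 | e1
  · rcases key (z + S.st z) (D.add_mem hz hs) (by rw [st_add, st_st, add_comm]) (by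
        rw [add_mul, mul_add, mul_add, hi, hi', ← hc, e1]; simp) with e2 | e2
    · left
      have := congrArg (z * ·) e2
      simpa [mul_add, hi, e1] using this
    · exact Or.inr (Or.inr (by rw [← e2]; simp))
  · exact Or.inr (Or.inl (by rw [← h.right z hz, ← e1, ← mul_assoc, hi]))

theorem Irr.mono {Z : S.NR} {a a' : Subgroup S.Eˣ} (h : S.Irr Z a) (ha : a ≤ a') : S.Irr Z a' :=
  fun U h1 h2 => h U h1 fun g hg => h2 g (ha hg)

theorem Abs.mono {Z : S.NR} {X X' : Subgroup S.Eˣ} (h : S.Abs Z X) (hX : X ≤ X') : S.Abs Z X' :=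
  fun x h1 h2 => h x h1 fun g hg => h2 g (hX hg)

variable [Finite V]

theorem Ful.mono {Z : S.NR} {X X' : Subgroup S.Eˣ} (h : S.Ful Z X) (hX : X ≤ X')
    (hA : X' ≤ S.iso (S.cent Z 1)) : S.Ful Z X' :=
  ⟨le_antisymm (spanR_le.2 fun _ hg => iso_mem (one_mem_cent _) (hA hg))
    (h.1.ge.trans (spanR_mono hX)), fun h1 h2 q' h3 =>
      let ⟨g, hg, e⟩ := h.2 h1 h2 q' h3
      ⟨g, hX hg, e⟩⟩

/-- A normal group of isometries of an irreducible group is trivial or has no fixed vector. -/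
theorem Irr.fixV_eq_bot {Z : S.NR} (hZ : S.Scal Z 1) {a X : Subgroup S.Eˣ} (h : S.Irr Z a)
    (hn : Nm a X) (hX : X ≤ S.iso (S.cent Z 1)) (h0 : X ≠ ⊥) : S.fixV X = ⊥ := by
  have hc : ∀ z ∈ Z, ∀ g ∈ X, g.1 * z = z * g.1 := fun z hz g hg =>
    (iso_mem (one_mem_cent _) (hX hg)).2.2 z hz
  obtain ⟨z, hz, hi, hU⟩ := h (S.fixV X) (fun z hz v hv => fixV_comm (hc z hz) hv)
    fun g hg v hv => fixV_inv hn hg hv
  have hf : ∀ g ∈ X, g.1 * z = z := fun g hg => LinearMap.ext fun v =>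
    (hU (z v)).2 (by rw [← Module.End.mul_apply, hi]) g hg
  rcases hZ.idem_cases hz hi with e | e | e
  · refine le_bot_iff.1 fun v hv => ?_
    have := (hU v).1 hv
    rw [e] at this
    exact this.symm
  · refine absurd (le_bot_iff.1 fun g hg => Units.ext ?_) h0
    simpa [e] using hf g hg
  · refine absurd (le_bot_iff.1 fun g hg => Units.ext ?_) h0
    have h1 := congrArg S.st (hf g⁻¹ (inv_mem hg))
    rw [st_mul, iso_st (hX (inv_mem hg)), inv_inv, e, sub_mul, one_mul, ← hc z hz g hg,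
      hf g hg] at h1
    exact sub_left_injective h1

section
variable {Z : S.NR} {n : ℕ} {H a b y : Subgroup S.Eˣ} (h : S.LC Z n H b) (hh : Hairy H a b)
  (ha : a ≤ y) (hb : y ≤ b)
include h hh ha hb

theorem LC.om_le : S.om (S.cent Z 1) ≤ b := h.top ▸ EE_le (hh.nomod (ha.trans hb) le_rfl)

theorem LC.EE_le_om : EE H y ≤ S.om (S.cent Z 1) :=
  h.top ▸ EE_mono (hh.nomod ha hb) (hh.nomod (ha.trans hb) le_rfl) hb

theorem LC.EE_le_iso : EE H y ≤ S.iso (S.cent Z 1) := (h.EE_le_om hh ha hb).trans (om_le_iso _)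

theorem LC.fixV_EE (hI : S.Irr Z y) : S.fixV (EE H y) = ⊥ :=
  hI.fixV_eq_bot h.scal (nm_EE H y) (h.EE_le_iso hh ha hb) (EE_ne_bot (hh.nomod ha hb))

/-- The stabiliser of a subring that is invariant under `y` but not under `Ω` is a proper node. -/
theorem LC.stabR {J : S.NR} (h1 : S.NmR y J) (h2 : ¬ S.NmR (S.om (S.cent Z 1)) J) :
    y ≤ b ⊓ nR J ∧ b ⊓ nR J < b :=
  ⟨le_inf hb h1.le_nR, lt_of_le_of_ne inf_le_left fun e => h2 (nmR_iff.2
    ((h.om_le hh ha hb).trans (e.ge.trans inf_le_right)))⟩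

end

end Vale.Agent.P183NK.FS
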