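import Vale.Agent.P183NC.Node
import Vale.Agent.P183NK.CSI
import Vale.Agent.P183LT.Key
import Vale.Agent.P183LT.Ramsey
import Vale.Agent.P183LT.Track

/-!
The assembly of the blocks.
-/

namespace Vale.Agent.P183NK

open Vale.Agent.P183A Vale.Agent.P183LT Subgroup

theorem ns_of_not_cm {G : Type} [Group G] {E : Subgroup G} (hs : IsSimpleGroup E)
    (hn : ¬ Cm E E) : NS E := by
  refine ⟨hs, ?_⟩
  by_contra c
  push Not at c
  exact hn fun a ha b hb => congrArg Subtype.val (c ⟨a, ha⟩ ⟨b, hb⟩)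

theorem card_le_fact {G : Type} [Group G] [Finite G] (T : Subgroup G) [T.Normal]
    (hc : centralizer (T : Set G) = ⊥) : Nat.card G ≤ (Nat.card T).factorial := by
  classical
  have := Fintype.ofFinite T
  rw [Nat.card_eq_fintype_card (α := T), ← Fintype.card_perm, ← Nat.card_eq_fintype_card]
  refine Nat.card_le_card_of_injective
    ((MulAut.toPerm T).comp (MulAut.conjNormal (H := T))) ((injective_iff_map_eq_one _).2 ?_)
  intro g hg
  rw [← mem_bot, ← hc]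
  intro t ht
  have h1 : ((MulAut.conjNormal g (⟨t, ht⟩ : T) : T) : G) = t :=
    congrArg Subtype.val (Equiv.ext_iff.1 hg ⟨t, ht⟩)
  rw [MulAut.conjNormal_apply] at h1
  exact (mul_inv_eq_iff_eq_mul.1 h1).symm

/-- The weak Schreier property: `G / T` has a solvable normal subgroup of bounded index. -/
def SchreierW (Φ : Fam) : Prop :=
  ∃ B : ℕ, ∀ (G : Type) [Group G] [Finite G] (T : Subgroup G) [T.Normal], IsSimpleGroup T →
    centralizer (T : Set G) = ⊥ → Φ T →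
    ∃ R : Subgroup G, R.Normal ∧ R.index ≤ B ∧ ∃ n, ∀ g ∈ derivedSeries R n, g.1 ∈ T

/-- `Block` with the weak Schreier property. -/
def BlockW (Φ : Fam) : Prop :=
  SchreierW Φ ∧ ∃ (Gen : GenT) (m₀ c m j : ℕ), 0 < m ∧ WStep Φ Gen m₀ c ∧ FThm Φ Gen m j

theorem Block.weak {Φ : Fam} (h : Block Φ) : BlockW Φ := by
  refine ⟨⟨1, fun G _ _ T _ h1 h2 h3 => ⟨⊤, inferInstance, index_top.le, ?_⟩⟩, h.2⟩
  obtain ⟨n, hn⟩ := h.1 G T h1 h2 h3
  refine ⟨n, fun g hg => ?_⟩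
  have := map_derivedSeries_le_derivedSeries
    ((QuotientGroup.mk' T).comp (⊤ : Subgroup G).subtype) n ⟨g, hg, rfl⟩
  rw [hn, mem_bot] at this
  exact (QuotientGroup.eq_one_iff _).1 this

theorem BlockW.mono {Φ Ψ : Fam} (h : BlockW Φ) (hi : ∀ (S : Type) [Group S] [Finite S],
    IsSimpleGroup S → Ψ S → Φ S) : BlockW fun S _ => IsSimpleGroup S ∧ Finite S ∧ Ψ S := by
  obtain ⟨⟨B, hB⟩, Gen, m₀, c, m, j, hm, hW, hF⟩ := h
  exact ⟨⟨B, fun G _ _ T _ h1 h2 h3 => hB G T h1 h2 (hi _ h1 h3.2.2)⟩, Gen, m₀, c, m, j, hm,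
    fun G _ _ H a z m k h1 h2 h3 h4 h5 => hW G H a z m k h1 h2 h3 h4 (hi _ h4 h5.2.2),
    fun G _ _ H T x b hr hmt => hF G H T x b hr
      (hmt.mono fun u z h => ⟨hi _ h.1.1 h.1.2.2, h.2⟩)⟩

theorem le_derivedSeries {G : Type} [Group G] {E R : Subgroup G} (hE : E ≤ ⁅E, E⁆) (n : ℕ) :
    E.subgroupOf R ≤ derivedSeries R n ∨ ¬ E ≤ R := by
  refine or_iff_not_imp_right.2 fun h => ?_
  have h : E ≤ R := not_not.1 h
  induction n with
  | zero => exact le_top
  | succ n ih =>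
    rw [derivedSeries_succ]
    refine le_trans ?_ (commutator_mono ih ih)
    rw [← map_le_map_iff_of_injective R.subtype_injective, map_commutator,
      subgroupOf_map_subtype, inf_eq_left.2 h]
    exact hE

/-- No deep configuration in an almost simple group whose simple sections are small or lie in one
of finitely many families with blocks. -/
theorem not_asik {r : ℕ} (Φ : Fin r → Fam) (hΦ : ∀ i, BlockW (Φ i)) (n : ℕ) :
    ∃ (Λ : Type) (_ : Lattice Λ) (_ : Finite Λ) (_ : Nonempty Λ),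
      ¬ ASIK (fun S _ => Nat.card S ≤ n ∨ ∃ i, Φ i S) Λ := by
  choose Gen m₀ c m j hm hW hF using fun i => (hΦ i).2
  choose B hB using fun i => (hΦ i).1
  obtain ⟨cs, hcs⟩ := smallTop n
  set m' := ∑ i, (m i + m₀ i) + 1 with hm'
  set c' := ∑ i, c i + cs with hc'
  set M := r * m' + 1 with hM
  set K := (∑ i, j i + 1) * (c' + 0 + 1) with hK
  have hmi : ∀ i, m i + m₀ i ≤ m' := fun i =>
    (Finset.single_le_sum (f := fun i => m i + m₀ i) (fun _ _ => Nat.zero_le _)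
      (Finset.mem_univ i)).trans (Nat.le_succ _)
  have hMi : ∀ i, m₀ i ≤ M := fun i => by
    have := hmi i
    have := Nat.le_mul_of_pos_left m' i.pos
    omega
  have hci : ∀ i, c i ≤ c' := fun i =>
    (Finset.single_le_sum (f := c) (fun _ _ => Nat.zero_le _) (Finset.mem_univ i)).trans
      (Nat.le_add_right _ _)
  have hM0 : 0 < M := Nat.succ_pos _
  obtain ⟨Λ, _, _, _, a, hH, hG⟩ := latticeEx M (K + c' + (n.factorial + ∑ i, B i)) hM0
  refine ⟨Λ, inferInstance, inferInstance, ⟨a⟩, ?_⟩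
  rintro ⟨G, _, _, T, H, _, hK, hT, hnab, hc, hcase, ⟨e⟩⟩
  have hK : KGrp (fun S _ => Nat.card S ≤ n ∨ ∃ i, Φ i S) G := hK
  let f : Λ → Subgroup G := fun x => (e x).1
  have hf : ∀ x y, f x ≤ f y ↔ x ≤ y := fun x y => e.le_iff_le
  have hsurj : ∀ w, H ≤ w → ∃ x, f x = w := fun w hw =>
    ⟨e.symm ⟨w, hw⟩, congrArg Subtype.val (e.apply_symm_apply _)⟩
  have hbot : f ⊥ = H := by
    obtain ⟨x, hx⟩ := hsurj H le_rfl
    exact le_antisymm (hx ▸ (hf _ _).2 bot_le) (e ⊥).2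
  have htop : f ⊤ = ⊤ := by
    obtain ⟨x, hx⟩ := hsurj ⊤ le_top
    exact top_le_iff.1 (hx ▸ (hf _ _).2 le_top)
  have hH' : Hairy H (f a) ⊤ := by
    have := hairy_map f hf (fun w h _ => hsurj w (hbot ▸ h)) hH
    rwa [hbot, htop] at this
  have hG' : Good M (K + c' + (n.factorial + ∑ i, B i)) (f a) ⊤ := by
    have := good_map f hf _ a ⊤ (fun w h _ => hsurj w ((e a).2.trans h)) hG
    rwa [htop] at this
  have hTn : NS T := ⟨hT, by
    obtain ⟨x, hx, y, hy, h⟩ := hnab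
    exact ⟨⟨x, hx⟩, ⟨y, hy⟩, fun e => h (congrArg Subtype.val e)⟩⟩
  -- the step
  have step : ∀ (a z : Subgroup G) (k : ℕ), Hairy H a z → Good M (k + c') a z →
      IsSimpleGroup (EE H z) → ∃ i a', a ≤ a' ∧ Good M k a' z ∧ Φ i (EE H z) ∧ Gen i G H a' z ∧
        AS H (EE H z) a' := fun a z k hh hg hs => by
    rcases (hK.sub (EE H z)).self (ns_of_not_cm hs (EE_not_cm (hh.nomod hg.lt.le le_rfl))) with
      h | ⟨i, h⟩
    · exact absurd (hg.of_le (k' := 0 + cs) (by omega)) (hcs G H a z M 0 hM0 hh hs h)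
    · obtain ⟨a', h1, h2, h3, h4⟩ := hW i G H a z M k (hMi i) hh
        (hg.of_le (by have := hci i; omega)) hs h
      exact ⟨i, a', h1, h2, h, h3, h4⟩
  rcases hcase with hsup | ⟨hTH, -⟩
  · have hn := hH'.nomod le_top le_rfl
    have hle : EE H ⊤ ≤ T := EE_le_of le_top (Nm.of_normal _ _) fun c =>
      hn.lt.ne (by rw [← hsup, sup_eq_left.2 c])
    have hE : EE H ⊤ = T := by
      have hN : ((EE H ⊤).subgroupOf T).Normal := ⟨fun x hx g => nm_EE H ⊤ g trivial x hx⟩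
      rcases hN.eq_bot_or_eq_top with e | e
      · refine absurd (le_bot_iff.1 fun x hx => ?_) (EE_ne_bot hn)
        have : (⟨x, hle hx⟩ : T) ∈ (EE H ⊤).subgroupOf T := hx
        rw [e, mem_bot] at this
        exact congrArg Subtype.val this
      · exact le_antisymm hle (subgroupOf_eq_top.1 e)
    obtain ⟨-, x, h1, h2, -, -, h4⟩ := step (f a) ⊤ K hH' (hG'.of_le (by omega)) (hE ▸ hT)
    have hreg := keyUp G H _ x ⊤ (hH'.up h1) le_rfl (nm_EE H ⊤) h4
    have hmt := toMT_aux (C := fun _ => False) (j := 0) (c := c') (m := M)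
      (P := fun u z => ∃ i, Φ i (EE H z) ∧ Gen i G H u z) (x := x) (b := ⊤)
      (fun a z k ha _ hg => by
        obtain ⟨i, a', g1, g2, g3, g4, -⟩ := step a z k (hreg.1.mono ha le_top) hg
          (hreg.2.2.2 z (ha.trans hg.lt.le) le_top).1
        exact Or.inr ⟨a', g1, g2, i, g3, g4⟩)
      (fun ⟨_, _, _, _, h, _⟩ => h) _ x ⊤ le_rfl le_rfl h2
    obtain ⟨i, hi⟩ := ramsey_aux (Nat.succ_pos _) _ _ j le_rfl x ⊤ hmt
    exact hF i G H _ x ⊤ hreg (hi.mono_m (hm i) ((Nat.le_add_right _ _).trans (hmi i)))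
  · rcases (hK.sub T).self hTn with h | ⟨i, h⟩
    · have h1 := hG'.card_le hM0
      have h2 := (card_le_fact T hc).trans (Nat.factorial_le h)
      have h3 : 0 < Nat.card (f a) := Nat.card_pos
      have h4 := Nat.lt_two_pow_self (n := K + c' + (n.factorial + ∑ i, B i) + 1)
      rw [card_top] at h1
      have := Nat.le_mul_of_pos_right (2 ^ (K + c' + (n.factorial + ∑ i, B i) + 1)) h3
      omega
    · obtain ⟨R, hR, hi, l, hl⟩ := hB i G T hT hc h
      have hn := hH'.nomod le_top le_rfl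
      have hRH : R ≤ H := (le_or_EE_le hn le_top (Nm.of_normal _ _)).resolve_right fun c =>
        EE_nle hn fun g hg => hTH (hl ⟨g, c hg⟩
          ((le_derivedSeries (EE_perfect hn) l).resolve_right (not_not.2 c) hg))
      have h1 := hG'.card_le hM0
      have h2 := card_le_of_le (hRH.trans hH'.le)
      have h3 : 0 < Nat.card R := Nat.card_pos
      have h4 := Nat.lt_two_pow_self (n := K + c' + (n.factorial + ∑ i, B i) + 1)
      have h5 := Finset.single_le_sum (f := B) (fun _ _ => Nat.zero_le _) (Finset.mem_univ i)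
      rw [card_top, ← R.index_mul_card] at h1
      have := Nat.le_of_mul_le_mul_right ((Nat.mul_le_mul_left _ h2).trans h1) h3
      omega

/-- The main theorem from the three blocks. -/
theorem main_of_blocks (hA : BlockAlt) (hL : BlockLie) (hC : BlockCl) :
    ∃ d : ℕ, ∀ c : ℕ, ∃ (L : Type) (_ : Lattice L) (_ : BoundedOrder L) (_ : Finite L),
      NoMod (⊥ : L) ⊤ ∧ ¬ GIK (fun S _ => Known d c S) L := by
  obtain ⟨d, hC⟩ := hC
  obtain ⟨n₁, hA⟩ := hA
  refine ⟨d, fun c => ?_⟩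
  obtain ⟨n₂, hL⟩ := hL c
  obtain ⟨Λ, _, _, _, hΛ⟩ := not_asik ![_, _, _] (fun i => by
    fin_cases i
    exacts [hA.weak, hL.weak, hC.weak]) (c + n₁ + n₂)
  obtain ⟨K, _, _, _, hK, h⟩ := track Λ
  refine ⟨K, inferInstance, inferInstance, inferInstance, hK, fun ⟨G, _, _, H, hG, e⟩ =>
    hΛ (h _ ⟨G, inferInstance, inferInstance, H, fun S _ h1 h2 h3 => ?_, e⟩)⟩
  by_cases hs : Nat.card S ≤ c + n₁ + n₂
  · exact Or.inl hs
  rcases hG S h1 h2 h3 with h | h | h | h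
  · omega
  · exact Or.inr ⟨0, h, by omega⟩
  · exact Or.inr ⟨2, h⟩
  · exact Or.inr ⟨1, h, by omega⟩

/-- Block C from its parts. -/
theorem blockCl_of (lit : LIT) (wcl : WCl) (w12 : W12) (w3 : W3) (w4 : W4) (w5 : W5)
    (lifts : ∃ d, LIFTS d) (same : SameChar) (cross : Cross) : BlockCl := by
  obtain ⟨d₀, h₀⟩ := wcl w12 w3 w4 w5 lifts
  obtain ⟨d₁, m, j, hm, h₁⟩ := same
  obtain ⟨d₂, h₂⟩ := cross
  obtain ⟨hS, m₀, c, hW⟩ := h₀ (d₀ + d₁ + d₂) (by omega)
  obtain ⟨j', hF⟩ := h₂ (d₀ + d₁ + d₂) m j (by omega) hm fun p G _ _ H T x b hr hmt =>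
    h₁ p G H T x b hr (hmt.mono fun u z ⟨h, M, h1, h2⟩ => ⟨h, M, by omega, h2⟩)
  obtain ⟨d', hd'⟩ := lit (d₀ + d₁ + d₂)
  exact ⟨d', fun G _ _ T _ h1 h2 h3 => hS G T h1 h2 (hd' _ h3), GenCl (d₀ + d₁ + d₂), m₀, c, m, j',
    hm, fun G _ _ H a z m k h1 h2 h3 h4 h5 => hW G H a z m k h1 h2 h3 h4 (hd' _ h5),
    fun G _ _ H T x b hr hmt => hF G H T x b hr (hmt.mono fun u z h => ⟨trivial, h.2⟩)⟩

end Vale.Agent.P183NK
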